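import Crest.Agent.X212.Mv27.Defs

/-!
# Row 212, layer G (helper27): the move of a list of twists
-/

set_option autoImplicit false
set_option linter.unusedSectionVars false
noncomputable section
open Set Function Filter Topology Matrix
open scoped ContDiff Manifold

namespace Crest.Agent.X212.Mv27
open M G75 Wd38 Nm96 Cyl58 Br55 Line51 Orx52

variable {Γ : Nm} {κ lam : Type} [Fintype κ] [Fintype lam] {C : Cx Γ} {Λ : NmL Γ} {K : LCx C Λ} {w : Shp Γ}
  {hw : w.OK} {X : TP V4} {R : Rz C hw X} {ts : List Tw} {a a' : Wl}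

theorem vg_univ : Vg R univ w.l w.r True True = univ := eq_univ_of_forall fun z => by
  rcases Rz.cover hw (X.τ z) with k | k | ⟨j, p, q, k⟩
  exacts [.inl (.inr ⟨trivial, k⟩), .inr ⟨trivial, k⟩,
    .inl (.inl ⟨II_mono p q k, .inr (mem_TA (fun _ _ _ => trivial) k)⟩)]

theorem pos_tws (R : Rz C hw X) : ∀ ts, Pos X.P.I X.P.I (R.tws ts) univ R.O R.O
  | [] => pos_id.2 (oriOn R.O_spec.ori univ).same
  | t :: l => (R.pos_tw t).comp (pos_tws R l) (fun z _ => (R.tw t).isLocalDiffeomorph z)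
      (fun z _ => (R.tws l).isLocalDiffeomorph z) (mapsTo_univ _ _)

theorem ut_b (h : Ut ts a a') : a'.b = a.b := by induction h <;> simp_all [Wl.twist]

theorem ut_ok (h : Ut ts a a') (ht : ∀ t ∈ ts, t.OK w) (k : a.OK w) : a'.OK w := by
  induction h with
  | nil => exact k
  | use t _ ih =>
    have := ih (fun s e => ht s (by simp [e])) k
    exact ⟨this.1, List.forall_mem_cons.2 ⟨ht t (by simp), this.2⟩⟩
  | clr _ _ ih => exact ih (fun s e => ht s (by simp [e])) k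

theorem ut_bn (G : Tab C.kd κ) (h : Ut ts a a') (k : a.b.OK w) : ∀ (k' : a'.b.OK w) (E : a.b.ty w = a'.b.ty w),
    (∀ p, R.tws ts ((R.bn a k).j p) = (R.bn a' k').j (cY C.kd E p.1, p.2)) ∧
      ∀ s z, R.tws ts z ∈ (R.bn a' k').wall.sd s ↔ z ∈ (R.bn a k).wall.sd s := by
  induction h with
  | nil => exact fun _ _ => ⟨fun _ => rfl, fun _ _ => Iff.rfl⟩
  | @use l a a' t _ ih =>
    exact fun k' E => ⟨fun p => congrArg (R.tw t) ((ih k k' E).1 p), fun s z =>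
      ((twId R G (W := fun _ : Unit => a') (fun _ => k') (.refl _) (.refl _) (W' := fun _ => a'.twist t)
        (fun _ => k') t fun _ => .inl rfl).sd () s _ trivial).trans ((ih k k' E).2 s z)⟩
  | @clr l a a' t _ c ih =>
    intro k' E
    exact ⟨fun p => (congrArg (R.tw t) ((ih k k' E).1 p)).trans
      (R.tw_off _ (disjoint_right.1 (R.K_clr c) (R.range_bn _ k' ▸ mem_range_self _))), fun s z =>
      ((twId R G (W := fun _ : Unit => a') (fun _ => k') (.refl _) (.refl _) (W' := fun _ => a')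
        (fun _ => k') t fun _ => .inr ⟨rfl, c⟩).sd () s _ trivial).trans ((ih k k' E).2 s z)⟩

/-- the isometry over a list of twists -/
theorem exists_tws (G : Tab C.kd κ) : ∀ (ts : List Tw) (_ : ∀ t ∈ ts, t.OK w) {n n₁ : Wd38.Wt} (_ : n₁ = acts w ts n)
    {l l' : Type} [Fintype l] [Fintype l'] (W : WL K R n l) (W₁ : WL K R n₁ l'),
    ∃ U, Uni X.P.I W₁.p (fun z => W.p (R.tws ts z)) U univ ∧ ∀ a a', Ut ts a a' → ∀ (k : a.OK w) (k' : a'.b.OK w)
      (E : a.b.ty w = a'.b.ty w) m₁ m, IsMk k.1 a.tw W₁ m₁ → IsMk k' a'.tw W m →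
        o2 w (acts w a'.tw n) a'.b = o2 w (acts w a.tw n₁) a.b ∧
          ∀ q, m (cY C.kd E q.1, q.2) * U ((R.bn a k.1).j q) = m₁ q
  | [], _, n, _, rfl, _, _, _, _, W, W₁ => by
    have g : Ga w w n n 0 w.l w.r univ := ga_self hw (fun _ _ => ⟨rfl, rfl⟩) fun _ _ _ => trivial
    obtain ⟨U, k⟩ := exists_gm (eL := True) (eR := True) W₁ W (lc_refl le_rfl le_rfl) g (cs_refl rfl rfl)
    rw [vg_univ] at k
    refine ⟨U, k.toUni, fun a a' h o _ _ m₁ m M₁ M => ?_⟩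
    cases h
    exact ⟨rfl, fun q => (mk_self g o ⟨trivial, trivial, fun _ _ _ _ _ => trivial⟩ M₁ M).2 isOpen_univ
      (GM.cp (lc_refl le_rfl le_rfl) g subset_rfl k) q trivial⟩
  | t :: l, ht, n, _, rfl, _, _, _, _, W, W₁ => by
    have o := ht t (by simp)
    have hl : ∀ s ∈ l, s.OK w := fun s e => ht s (by simp [e])
    obtain ⟨W₂⟩ := exists_WL K R (act_ok W.ok o)
    obtain ⟨U, T⟩ := exists_twx o W W₂
    obtain ⟨U', u, H⟩ := exists_tws G l hl rfl W₂ W₁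
    refine ⟨fun z => U (R.tws l z) * U' z, u.trans (T.uni.comp ⟨fun z _ => (R.tws l).contMDiff z, mapsTo_univ _ _⟩),
      fun a a' h k k' E m₁ m M₁ M => ?_⟩
    cases h with
    | @use _ _ a' _ h =>
      have k₂ := ut_ok h hl k
      obtain ⟨m₂, M₂⟩ := exists_isMk k₂.1 _ k₂.2 W₂
      obtain ⟨e, e'⟩ := H a a' h k k' E m₁ m₂ M₁ M₂
      refine ⟨e, fun q => ?_⟩
      rw [← Matrix.mul_assoc, (ut_bn G h k.1 k' E).1 q, ← e' q]
      exact congrArg (· * _) (mk_use (l := a'.tw) k₂ T M M₂ _)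
    | clr h c =>
      have k₂ := ut_ok h hl k
      obtain ⟨m₂, M₂⟩ := exists_isMk k₂.1 _ k₂.2 W₂
      obtain ⟨e, e'⟩ := H a a' h k k' E m₁ m₂ M₁ M₂
      have c' := mk_clr k₂ c T M M₂
      refine ⟨c'.1.trans e, fun q => ?_⟩
      rw [← Matrix.mul_assoc, (ut_bn G h k.1 k' E).1 q, ← e' q]
      exact congrArg (· * _) (c'.2 _)

theorem cp_acts (μ : ℤ × ℤ) : ∀ (ts : List Tw) (n : Wd38.Wt), cp (acts w ts n) μ = acts w ts (cp n μ)
  | [], _ => rfl
  | t :: l, n => cp_acts μ l (t.act w n)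

variable {G : Tab C.kd κ}

theorem lid1 {w' : Shp Γ} {hw' : w'.OK} {ls ls' : Finset Bs} {n n' : Wd38.Wt} {V : Matrix lam K3 ℂ}
    {W : WL K (C.rz hw) n lam} {W' : WL K (C.rz hw') n' lam} {N : ML (um G hw ls) lam} {N' : ML (um G hw' ls') lam}
    (h : IsN V W N) (h' : IsN V W' N') {ψ} (pos) {a : UW w ls} {a' : UW w' ls'} (k : Mch hw hw' ψ a a')
    {O : Set (C.X hw).P.M} (hO : IsOpen O) (hs : O ⊆ ψ.source) {u} (hu : Uni (C.X hw).P.I W.p (fun z => W'.p (ψ z)) u O)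
    (e : ∀ m m', IsMk a.2.1.1 a.1.tw W m → IsMk a'.2.1.1 a'.1.tw W' m' →
      o2 w' (acts w' a'.1.tw n') a'.1.b = o2 w (acts w a.1.tw n) a.1.b ∧ ∀ q, ((C.rz hw).bn a.1 a.2.1.1).j q ∈ O →
        m' (cY C.kd k.E q.1, q.2) * u (((C.rz hw).bn a.1 a.2.1.1).j q) = m q) : LId N N' (mid1 G pos k) O u :=
  lid0 h h' (mid1 G pos k) (fun _ => k.E) (fun _ => rfl) hO hs hu fun _ => e

variable [DecidableEq lam] {P : Pm Γ} {L : LP C G P lam}

/-- **MV-TW** -/
theorem twStmt (H : Nat L) : TwStmt L := fun {w ls} h μ ts ht => by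
  obtain ⟨V, hV⟩ := H.isN
  have mch : ∀ a a' : UW w ls, Ut ts a.1 a'.1 → Mch h.w h.w ((C.rz h.w).tws ts).toPartialDiffeomorph a a' :=
    fun a a' k => have E := congrArg (Bs.ty w) (ut_b k).symm
      ⟨E, fun p => ⟨trivial, (ut_bn G k _ _ E).1 p⟩, fun s z _ => (ut_bn G k _ _ E).2 s z⟩
  have pos : Pos (C.X h.w).P.I (C.X h.w).P.I ((C.rz h.w).tws ts).toPartialDiffeomorph
    ((C.rz h.w).tws ts).toPartialDiffeomorph.source (C.rz h.w).O (C.rz h.w).O := pos_tws (C.rz h.w) ts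
  have key : ∀ n, ∃ U, ∀ (hn : (f0 w ls).LOK P (acts w ts n)) (hn' : (f0 w ls).LOK P n),
      Uni (C.X h.w).mf.I (L.N h hn μ).p (fun z => (L.N h hn' μ).p ((C.rz h.w).tws ts z)) U univ ∧
      ∀ a a' (k : Ut ts a.1 a'.1), LId (L.N h hn μ) (L.N h hn' μ) (mid1 G pos (mch a a' k)) univ U := fun n => by
    by_cases e : (f0 w ls).LOK P (acts w ts n) ∧ (f0 w ls).LOK P n
    · obtain ⟨U, u, k⟩ := exists_tws G ts (fun t e => (ht t e).1) (cp_acts μ ts n) (L.W h e.2 μ) (L.W h e.1 μ)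
      refine ⟨U, fun hn hn' => ⟨by rw [L.p, L.p]; exact u, fun a a' o => ?_⟩⟩
      refine lid1 (hV h hn μ) (hV h hn' μ) pos (mch a a' o) isOpen_univ subset_rfl u fun m m' M M' => ?_
      exact (k _ _ o a.2.1 _ _ m m' M M').imp_right fun c q _ => c q
    · exact ⟨0, fun p q => (e ⟨p, q⟩).elim⟩
  choose U hU using key
  exact ⟨⟨_, pos, isOpen_univ, subset_rfl, mch, U, fun n p q => (hU n p q).1, fun n p q => (hU n p q).2⟩, rfl⟩

end Crest.Agent.X212.Mv27
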