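import Crest.Agent.X212.Mv27.Gen

/-!
# Row 212, layer G (helper27): the move of a surgery
-/

set_option autoImplicit false
set_option linter.unusedSectionVars false
noncomputable section
open Set Function Filter Topology Matrix
open scoped ContDiff Manifold

namespace Crest.Agent.X212.Mv27
open M G75 Wd38 Nm96 Cyl58 Br55 Line51 Orx52

variable {Γ : Nm} {κ lam : Type} [Fintype κ] [Fintype lam] {C : Cx Γ} {w w' : Shp Γ} {hw : w.OK} {hw' : w'.OK}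
  {G : Tab C.kd κ} {ls ls' : Finset Bs} {x y : ℤ}

theorem lid2 {Λ : NmL Γ} {K : LCx C Λ} {n n' : Wd38.Wt} {V : Matrix lam K3 ℂ}
    {W : WL K (C.rz hw) n lam} {W' : WL K (C.rz hw') n' lam} {N : ML (um G hw ls) lam} {N' : ML (um G hw' ls') lam}
    (h : IsN V W N) (h' : IsN V W' N') {ψ} (pos) {a : UW w ls} {a' : UW w' ls'} (k : Mch hw hw' ψ a a')
    {O : Set (C.X hw).P.M} (hO : IsOpen O) (hs : O ⊆ ψ.source) {u A} (c : Lc (C.rz hw) (C.rz hw') 0 x y ψ)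
    (g : Ga w w' n n' 0 x y A) (e : a.1 = a'.1) (m : a.1.Mt w w' 0 x y) (t : WA A a.1) (p : Cp W W' ψ 0 x y O u) :
    LId N N' (mid1 G pos k) O u :=
  lid h h' (mid1 G pos k) (fun _ => k.E) (fun _ => rfl) hO hs p.uni
    fun _ => ⟨0, x, y, A, c, g, e.symm.trans (Wl.sh_zero _).symm, m, t, p⟩

theorem mt_of {a : Wl} (o : a.OK w) {A : Set ℤ} (hA : ∀ j ∈ A, w'.s j = w.s j) (t : WA A a) (h1 : x ≤ a.b.lo)
    (h2 : a.b.hi ≤ y) (h3 : a.b.lo < y) (h4 : ∀ t ∈ a.tw, x < t.x ∧ t.y < y) : a.Mt w w' 0 x y := by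
  have e : ∀ j ∈ A, w'.s (j + 0) = w.s j := fun j k => by rw [add_zero, hA j k]
  obtain ⟨b, l⟩ := a
  refine ⟨?_, fun s k => ?_⟩
  · cases b
    iterate 3 exact ⟨h1, h2, congrArg Sl.r (e _ t.1), congrArg Sl.l (e _ t.2.1)⟩
    all_goals exact ⟨h1, h3, congrArg Sl.r (e _ t.1)⟩
  · have r := (o.2 s k).rg.lt.le
    exact ⟨o.2 s k, (h4 s k).1, (h4 s k).2, congrArg Sl.r (e _ (t.2.2 s k _ le_rfl r)),
      fun j p q => e _ (t.2.2 s k j p.le q.le), congrArg Sl.l (e _ (t.2.2 s k _ r le_rfl))⟩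

theorem mt_sur (S : w.Sur w' x y) {a : Wl} (o : a.OK w) (k : a.Out x y) :
    a.Mt w w' 0 w.l w.r ∧ WA {j | j ≤ x ∨ y ≤ j} a :=
  have t : WA {j | j ≤ x ∨ y ≤ j} a := ⟨k.1, k.2.1, fun t e j p q => by
    have := k.2.2 t e; simp only [mem_ofPred_eq]; omega⟩
  ⟨mt_of o S.eq t (Sid48.OK_lo o.1).1 (Sid48.OK_hi o.1).2 (Sid48.OK_lo o.1).2
    fun s e => ⟨by linarith [(o.2 s e).rg.lo], (o.2 s e).rg.hi⟩, t⟩

theorem hf_rA {r : UW w ls} (e : r.1 = Bs.rA x y) :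
    hf (um G hw ls) r true = ((C.rz hw).D x y (Iic ((y - x) / 2 - 1 / 4)))ᶜ := Set.ext fun z => by
  rw [hf_true (congrArg Wl.tw e), e]
  rfl

variable [DecidableEq lam] {P : Pm Γ} {L : LP C G P lam}

/-- **MV-SUR** -/
theorem surStmt (H : Nat L) : SurStmt L := fun {w w' ls ls'} h h' μ x y g r r' e e' S el far nin _ chg => by
  obtain ⟨V, hV⟩ := H.isN
  have Hc := S.hc h.w h'.w
  obtain ⟨ψ, c⟩ := exists_cm (R := C.rz h.w) (R' := C.rz h'.w) Hc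
  have lt := S.rg.lt
  have ro : (Bs.rA x y : Wl).Out x y := ⟨.inl le_rfl, .inr le_rfl, nofun⟩
  have out : ∀ {a a' : Wl}, a = a' ∧ (a = Bs.rA x y ∨ a.Out x y ∧ a.b.Far (.rA x y)) → a.Out x y :=
    fun k => k.2.elim (· ▸ ro) And.left
  have sub : hf (um G h.w ls) r true ⊆ ψ.source := fun z k => c.sur S ((hf_rA e).le k)
  have sep : ∀ a : UW w ls, IsL ls' a.1 → a.1.b ∈ ls ∧ (y < a.1.b.lo ∨ a.1.b.hi < x) := fun a k => by
    obtain ⟨k1, k2⟩ := Finset.mem_filter.1 (el ▸ k.2 :)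
    refine ⟨k1, ?_⟩
    have := (lens_eq h k1).2.1
    rcases far _ k1 with f | f | f | f
    exacts [.inl f, .inr f, (k2 ⟨f.2.1, f.2.2.1⟩).elim, (nin _ k1 (by
      have f1 : a.1.b.lo < x := f.2.1
      have f2 : y < a.1.b.hi := f.2.2.1
      congr 1 <;> omega)).elim]
  have ins : ∀ a : UW w ls, IsL ls' a.1 → hf (um G h.w ls) a false ⊆ hf (um G h.w ls) r true := fun a k z t => by
    have u := hf_II h ⟨k.1, (sep a k).1⟩ t
    rw [hf_rA e]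
    exact fun d => (sep a k).2.elim (fun f => Rz.II_disj f ((C.rz h.w).D_II d) u)
      fun f => Rz.II_disj f u ((C.rz h.w).D_II d)
  obtain ⟨m, rfl⟩ := exists_mv H h h' μ (g := g) (g' := id)
    (Dw := fun a a' => a = a' ∧ (a = Bs.rA x y ∨ a.Out x y ∧ a.b.Far (.rA x y))) c.pos (isOpen_hf _ _ _) sub
    (fun a a' k => mch_lc c.toLc k.1 (mt_sur S a.2.1 (out k)).1) (fun _ _ => 1) (fun n hn hn' => by
      have ga : Ga w w' (cp (g n) μ) (cp n μ) 0 w.l w.r {j | j ≤ x ∨ y ≤ j} := ⟨h.w.lt, fun j k => by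
        have := chg.1 n j
        rw [add_zero, add_zero] at this
        rw [Gd, add_zero, S.eq j k]
        exact ⟨fun _ => ⟨rfl, (this.2 k).symm⟩, fun _ => ⟨rfl, (this.1 k).symm⟩⟩,
        fun j J _ _ k => by_contra fun f =>
          Shp.rod_iff.1 (S.rg.fr j (by simp at f; omega) (by simp at f; omega)) J k⟩
      obtain ⟨u, k⟩ := exists_gm (L.W h hn μ) (L.W h' hn' μ) c.toLc ga (cs_cm Hc c (fun _ => rfl) fun _ => rfl)
      replace k := k.mono ((hf_rA (G := G) e).trans_subset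
        (compl_D S.rg (Iic_subset_Iic.2 (by linarith)) fun _ f => f)) inter_subset_right
      have p := GM.cp c.toLc ga sub k
      refine ⟨u, ⟨_, isOpen_Dw, dense_Dw, subset_rfl, k.congr fun z _ _ => ⟨rfl, ?_⟩⟩, fun a a' o =>
        lid2 (hV h hn μ) (hV h' hn' μ) _ _ (isOpen_hf _ _ _) sub c.toLc ga o.1 (mt_sur S a.2.1 (out o)).1
          (mt_sur S a.2.1 (out o)).2 p⟩
      rw [lm_one ⟨_, h.w.sl⟩ ⟨_, Hc.l trivial ▸ h'.w.sl⟩])
    fun a k => by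
      obtain ⟨k1, k2⟩ := sep a k
      have := (lens_eq h k1).2.1
      exact ⟨k1, ⟨rfl, .inr ⟨⟨by omega, by omega, k.1 ▸ nofun⟩, k2.symm.imp_right .inl⟩⟩, ins a k,
        ⟨_, _, c.toLc, (Sid48.OK_lo a.2.1.1).1, (Sid48.OK_hi a.2.1.1).2⟩, fun n => ⟨chg.2 _ k.2 n, rfl,
          by rw [sgl, (chg.1 n _).1 (by omega)]; rfl, rfl, fun _ _ => rfl⟩⟩
  refine ⟨m, Subset.antisymm ?_ fun z k => ?_, fun a k => ⟨fun f => ins a ⟨k.1, f⟩, fun f => by_contra fun o => ?_⟩⟩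
  · rintro _ ⟨z, k, rfl⟩
    exact mch_hf (m.mch r r' ⟨e.trans e'.symm, .inl e⟩) (sub k) k
  · have c' := c.symm Hc
    rw [neg_zero, ← Hc.l trivial, ← Hc.r trivial] at c'
    rw [hf_rA e'] at k
    have t := c'.sur S.symm k
    refine ⟨_, (hf_rA e).ge fun d => k ?_, m.ψ.right_inv t⟩
    exact m.ψ.right_inv t ▸ (c.D (add_zero _).symm (add_zero _).symm S.rg.lo S.rg.hi (m.ψ.map_target t)).2 d
  · obtain ⟨o1, o2⟩ : x < a.1.b.lo ∧ a.1.b.hi < y := by_contra fun s => o (el ▸ Finset.mem_filter.2 ⟨k.2, s⟩)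
    obtain ⟨g1, g2, g3⟩ := lens_eq h k.2
    obtain ⟨z, t, -⟩ := ((um G h.w ls).sys.w a).ne true
    have t' : z ∈ hf (um G h.w ls) a false := .inr t
    have d := (hf_false k.1).1 t'
    rw [((C.rz h.w).arc_eq g1).1, g3] at d
    obtain ⟨ρ, ρ', k1, k2, k3⟩ := (C.rz h.w).D_up S.rg o1.le o2.le d
    have k4 : _ < ρ := not_le.1 fun s => (hf_rA e).le (f t') ((k3 _).2 s)
    have p1 := Sid48.cast_lt o1
    have p2 := Sid48.cast_lt o2
    have p3 : (a.1.b.hi : ℝ) = a.1.b.lo + 3 := by exact_mod_cast g2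
    exact (Rz.abs_cc _ _ _ _ (r := ρ - ρ') (by linarith [mem_Iio.1 k1]) (by linarith [mem_Iio.1 k1])).not_ge
      ((le_abs_self _).trans k2)

end Crest.Agent.X212.Mv27
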