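import Crest.Agent.X212.Br55.Defs
import Crest.Agent.X212.Line51.Wd3
import Crest.Agent.X212.Wd38.Str

/-!
# Row 212, layer G (helper27): what the moves need of the lines of all frames

* `LInv` : inverse junctions with inverse isometries; `Nat L` : the properties of the instance.
-/

set_option autoImplicit false
set_option linter.unusedSectionVars false
noncomputable section
open Set Function Filter Topology Matrix
open scoped ContDiff Manifold

namespace Crest.Agent.X212.Mv27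
open M G75 Wd38 Nm96 Cyl58 Br55 Line51

variable {Γ : Nm} {κ lam : Type} [Fintype κ] [Fintype lam] [DecidableEq lam] {C : Cx Γ} {G : Tab C.kd κ} {P : Pm Γ}

/-- `J'` is inverse to `J`, and so are the isometries of the lines -/
def LInv {Λ : NmL Γ} (K : LCx C Λ) (J J' : Γ.J) : Prop :=
  C.Inv J J' ∧ ∀ i i', Λ.ok J i i' → Λ.ok J' i' i → ∀ q q', HEq q' (C.g J q) →
    K.u J' i' i q' * K.u J i i' q = (K.S (Γ.src J) i).L.p q

/-- **naturality of the lines of all frames** -/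
structure Nat (L : LP C G P lam) : Prop where
  isN : ∃ V, ∀ {w ls} (h : (f0 w ls).OK P) {n} (hn : (f0 w ls).LOK P n) μ, IsN V (L.W h hn μ) (L.N h hn μ)
  out : ∀ {w ls} (h : (f0 w ls).OK P) {n} (hn : (f0 w ls).LOK P n) μ (a : UW w ls), IsL ls a.1 →
    ∀ hn' : (f0 w ls).LOK P (fl a.1.b n), EqOn (L.W h hn' μ).g (L.W h hn μ).g (hf (um G h.w ls) a true)
  ins : ∃ g : Bool → L.Lm.X.M → Matrix lam Unit ℂ, ∀ {w ls} (h : (f0 w ls).OK P) {n} (hn : (f0 w ls).LOK P n) μ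
    a ha, ∀ z ∈ hf L.Lm.M () false, (L.W h hn μ).g ((L.I h a ha).ψ z) = g (sgl a.1.b n) z
  cr : ∃ (wm : Shp Γ) (hm : wm.OK) (e : L.Lm.X.M → (C.X hm).P.M) (x₀ : ℤ), wm.Rg x₀ (x₀ + 3) ∧
    ∀ {w ls} (h : (f0 w ls).OK P) a ha, ∃ x y φ, x ≤ x₀ ∧ x₀ + 3 ≤ y ∧
      Lc (C.rz hm) (C.rz h.w) (a.1.b.lo - x₀) x y φ ∧ ∀ z ∈ hf L.Lm.M () false,
        (C.X hm).τ (e z) ∈ II x₀ (x₀ + 3) ∧ e z ∈ φ.source ∧ (L.I h a ha).ψ z = φ (e z)
  inv : ∀ J J', P.iv J J' → LInv L.L J J'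

end Crest.Agent.X212.Mv27
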