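import Crest.Agent.X212.Mv27.Rt

/-!
# Row 212, layer G (helper27): the move that inserts a junction and its inverse
-/

set_option autoImplicit false
set_option linter.unusedSectionVars false
noncomputable section
open Set Function Filter Topology Matrix
open scoped ContDiff Manifold

namespace Crest.Agent.X212.Mv27
open M G75 Wd38 Nm96 Cyl58 Br55 Line51 Orx52 Pj41
open Dr59 (Mp)
open Rod53 (Z2)

variable {Γ : Nm} {C : Cx Γ} {Λ : NmL Γ} {K : LCx C Λ} {w w' : Shp Γ} {hw : w.OK} {hw' : w'.OK} {X X' : TP V4}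
  {R : Rz C hw X} {R' : Rz C hw' X'} {n n' : Wd38.Wt} {x y x' y' : ℤ} {τ τ' τ'' : Γ.ι × Z2}
  {l l' : Type} [Fintype l] [Fintype l'] {J J' : Γ.J}

theorem ps_pw {g : C.Df τ τ'} {g' : C.Df τ' τ''} (m : C.Mo (w.s x) τ τ' g) (m' : C.Mo (w.s y) τ' τ'' g')
    (k : w.Rg x y) (e e') (h1 : w.l < x) (h2 : y < w.r) :
    R.Ps x y (g.trans g') ((C.cg g (isOpen_II x y)).trans (pm R k e e')) :=
  ⟨h1, k.lt.le, h2, m.spec.1, m'.spec.2.1,
    (C.tpos_cg m.spec.2.2 _).trans ((C.tpos_pw _ _ _ _).trans (R.O_spec.B k)),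
    m'.spec.2.2.comp m.spec.2.2 (fun z _ => g'.isLocalDiffeomorph z) (fun z _ => g.isLocalDiffeomorph z)
      (mapsTo_univ _ _), fun h q _ t => R.slot m h k q t, fun h _ _ t => (R.slot m' k h _ t).symm⟩

theorem exists_spl0 (o : w.Out w' 0 0 x y) {g : C.Df τ τ'} {M M'} (P : R.Ps x y g M) (P' : R'.Ps x' y' g M')
    (h : x < y) (ex : x' = x + 0) (ey : y' = y + 0) : ∃ ψ : X.mf.M ≃ₘ^∞⟮X.mf.I, X'.mf.I⟯ X'.mf.M,
      Pos X.P.I X'.P.I ψ univ R.O R'.O ∧ Lc R R' 0 w.l x ψ.toPartialDiffeomorph ∧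
      Lc R R' 0 y w.r ψ.toPartialDiffeomorph ∧ (∀ {n n' : Wd38.Wt}, n'.mL = n.mL → Cs n n' R R' True False ψ) ∧
      (∀ {n n' : Wd38.Wt}, n'.mR = n.mR → Cs n n' R R' False True ψ) ∧ ∃ σ : ℝ → ℝ,
        Mp 𝓘(ℝ, ℝ) 𝓘(ℝ, ℝ) (II x y) (II x y) σ ∧ (∀ t : ℝ, t < x + 3 / 4 ∨ y + 1 / 4 < t → σ t = t) ∧
        (∀ z, X'.τ (ψ z) = σ (X.τ z)) ∧ ∀ q, ∀ t ∈ II x y, ψ (M (q, t)) = M' (q, σ t) := by
  subst ex ey
  obtain ⟨ψ, s⟩ := exists_spl o P P' h (by omega)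
  obtain ⟨σ, u, a, b, t, m⟩ := s.mid
  have HL : Hc w w' 0 w.l x True False := ⟨s.L.sk, fun _ => o.l, False.elim⟩
  have HR : Hc w w' 0 y w.r False True := ⟨s.Rt.sk, False.elim, fun _ => o.r⟩
  have l1 := Sid48.cast_lt P.lo
  have l2 := Sid48.cast_lt P.hi
  have l3 := Sid48.cast_lt h
  refine ⟨ψ, s.pos, s.L, s.Rt, fun e => ⟨fun _ => ⟨e, fun p k => ⟨HL.capL trivial k,
    (s.cL _ (lt_trans (R.kL.mem k) (by linarith))).uq HL (.kL trivial k)⟩⟩, False.elim⟩,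
    fun e => ⟨False.elim, fun _ => ⟨e, fun p k => ⟨HR.capR trivial k,
    (s.cR _ (lt_trans (by linarith) (R.kR.mem k))).uq HR (.kR trivial k)⟩⟩⟩, σ, ⟨fun t _ => σ.contMDiff t,
    fun t => (mem_Ioo_of u.strictMono ((a _ (by linarith)).trans (by simp)) ((b _ (by linarith)).trans (by simp)) t).2⟩,
    fun t k => k.elim (fun k => (a t k.le).trans (by simp)) fun k => (b t k.le).trans (by simp), t, m⟩

theorem nu_mo {g : C.Df τ τ'} (m : C.Mo (.jn J) τ τ' g) (e : w.s y = .jn J) (k : w.Rg y y') (e' a) {t : ℝ}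
    (ht : t ∈ II y y) (o : Λ.ok J (n.nl y) (n.nr y)) : ∃ a', HEq a' a ∧
      PIso (K.u J (n.nl y) (n.nr y) a') ((K.S τ (n.nl y)).L.p a) ((K.S τ' (n.nr y)).L.p (g a)) ∧
      K.nu R n y (R.B k (C.pR hw k e' (g a, t))) =
        ph (((K.S τ' (n.nr y)).s (g a))ᴴ * (K.u J (n.nl y) (n.nr y) a' * (K.S τ (n.nl y)).s a)) := by
  cases m
  exact ⟨a, .rfl, (K.hu J _ _ o).iso a trivial, nu_jn k e a ht⟩

theorem ph_ct (a : Matrix Unit Unit ℂ) : ph aᴴ = (ph a)⁻¹ := Rod53.dir_conj _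

/-- the lines of a word and of the word with a junction and its inverse -/
theorem exists_cn (i : LInv K J J') (c : w.Can w' J J' x y) :
    ∃ (ψ : X.mf.M ≃ₘ^∞⟮X.mf.I, X'.mf.I⟯ X'.mf.M) (f : Wd38.Wt → X.P.M → Circle), Pos X.P.I X'.P.I ψ univ R.O R'.O ∧
      Lc R R' 0 w.l x ψ.toPartialDiffeomorph ∧ Lc R R' 0 y w.r ψ.toPartialDiffeomorph ∧
      (∀ n z, X.τ z ∉ II x y → f n z = 1) ∧ (∀ n n', n'.nl x = n.nl x → n'.nr x = n.nr x → f n' = f n) ∧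
      ∀ {n n'} (W : WL K R n l) (W' : WL K R' n' l'), n'.mL = n.mL → n'.mR = n.mR →
        Ga w w' n n' 0 w.l x (Iic x) → Ga w w' n n' 0 y w.r (Ici y) →
        ∃ u, GU W W' ψ (f n') univ u ∧ Cp W W' ψ 0 w.l x univ u ∧ Cp W W' ψ 0 y w.r univ u := by
  classical
  obtain ⟨g, m, ι⟩ := i.1
  have lt := c.lt
  have lo : w'.l < x := c.l ▸ c.lo
  have hi : y < w'.r := c.r ▸ c.hi
  have rx := c.rod x le_rfl lt.le
  have ry := c.rod y lt.le le_rfl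
  have k : w.Rg x y := ⟨c.lo.le, lt, c.hi.le, fun j p q => ⟨_, c.rod j p.le q.le⟩⟩
  have k' : w'.Rg x y := ⟨lo.le, lt, hi.le, fun j p q => ⟨_, c.rod' j p q⟩⟩
  have k'' := Shp.rg_one (lo.trans lt).le hi
  have m' : C.Mo (w'.s y) _ _ g := c.y' ▸ m
  have e : (Γ.src J).1 = w.kn x := (congrArg (·.r.1) rx).symm
  have e' := bw_const (τ := Γ.src J) (y := y) (congrArg Sl.r rx) fun j p q => congrArg Sl.l (c.rod j p.le q)
  have f : (Γ.tgt J).1 = w'.kn x := (congrArg (·.r.1) c.x').symm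
  have f' := bw_const (τ := Γ.tgt J) (y := y) (congrArg Sl.r c.x') fun j p q =>
    q.eq_or_lt.elim (· ▸ m'.spec.1) fun s => congrArg Sl.l (c.rod' j p s)
  have P := ps_pw (R := R) (rx.symm ▸ Cx.Mo.rod (Γ.src J) :) (ry.symm ▸ Cx.Mo.rod (Γ.src J) :) k e e' c.lo c.hi
  have P' := ps_pw (R := R') (c.x'.symm ▸ Cx.Mo.jn J :) m' k' f f' lo hi
  rw [show (C.g J).trans g = (Diffeomorph.refl _ _ _).trans (Diffeomorph.refl _ _ _) from Diffeomorph.ext ι] at P'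
  obtain ⟨ψ, pos, cL, cR, sL, sR, σ, hσ, σ1, tm, md⟩ :=
    exists_spl0 (c.out i.1) P P' lt (add_zero _).symm (add_zero _).symm
  replace md : ∀ q, ∀ t ∈ II x y, ψ (pm R k e e' (q, t)) = pm R' k' f f' (C.g J q, σ t) := md
  let F : Wd38.Wt → X.P.M → Circle := fun n z => if X.τ z ∈ II x y then
    K.γ J (n.nl x) (n.nr x) ((pm R k e e').symm z).1 * (K.nu R' n x (ψ z))⁻¹ else 1
  refine ⟨ψ, F, pos, cL, cR, fun n z a => if_neg a, fun n n' p q => by simp only [F, p, q, nu_congr p q],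
    fun {n n'} W W' eL eR gL gR => ?_⟩
  have l1 := Sid48.cast_lt c.lo
  have l2 := Sid48.cast_lt c.hi
  have l3 := Sid48.cast_lt lt
  have n1 : n.nr x = n'.nl x := by
    rw [← W.ok.rod x _ c.lo (lt.trans c.hi) rx, ← ((gL.gd x self_mem_Iic).2 c.lo).2, add_zero]
  have n2 : n'.nr y = n'.nl x := by
    rw [← n1, ← bn_const W.ok k e' y lt.le le_rfl, bn_ge lt le_rfl, W.ok.rod y _ (c.lo.trans lt) c.hi ry,
      ← ((gR.gd y self_mem_Ici).1 c.hi).2, add_zero]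
  have n3 : n'.nl y = n'.nr x := by rw [← bn_const W'.ok k' f' y lt.le le_rfl, bn_ge lt le_rfl]
  have o1 := W'.ok.jn x J lo (lt.trans hi) c.x'
  have o2 := W'.ok.jn y J' (lo.trans lt) hi c.y'
  have pt : ∀ {z}, X.τ z ∈ II x y → σ (X.τ z) = X.τ z → ∃ q, ψ z = pm R' k' f f' (C.g J q, X.τ z) ∧
      F n' z = K.γ J (n'.nl x) (n'.nr x) q * (K.nu R' n' x (ψ z))⁻¹ := fun {z} s t => by
    obtain ⟨q, a⟩ := (pm R k e e').exists_cyl s
    refine ⟨q, by rw [← t, ← md q _ s, a], (if_pos s).trans ?_⟩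
    rw [show (pm R k e e').symm z = (q, X.τ z) from a ▸ by rw [(pm R k e e').symm_apply (x := (q, _)) s, a]]
  have hL : ∀ z, X.τ z < x + 3 / 4 → F n' z = lm n n' K R R' ψ.toPartialDiffeomorph 0 w.l z := fun z s => by
    rw [lm_one ⟨_, hw.sl⟩ ⟨_, (c.out i.1).l ▸ hw'.sl⟩]
    by_cases t : X.τ z ∈ II x y
    · obtain ⟨q, a, b⟩ := pt t (σ1 _ (.inl s))
      rw [b, a, mul_inv_eq_one]
      exact (nu_jn k' c.x' q ⟨t.1, s⟩).symm
    · exact if_neg t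
  have hR : ∀ z, y + 1 / 4 < X.τ z → F n' z = lm n n' K R R' ψ.toPartialDiffeomorph 0 y z := fun z s => by
    have tz : X'.τ (ψ z) = X.τ z := (tm z).trans (σ1 _ (.inr s))
    rw [lm, LCx.nu_one (.inl ⟨_, ry⟩), add_zero, one_mul]
    change _ = (K.nu R' n' y (ψ z))⁻¹
    by_cases t : X.τ z ∈ II x y
    · obtain ⟨q, a, b⟩ := pt t (σ1 _ (.inr s))
      have t' : X.τ z ∈ II y y := ⟨s, t.2⟩
      obtain ⟨q', h1, h2, h3⟩ := nu_mo (K := K) (R := R') m c.y' k'' m'.spec.2.1 (C.g J q) t' o2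
      have h4 := (K.hu J _ _ o1).iso q trivial
      rw [n2, n3] at h2 h3 o2
      rw [b, LCx.nu_lt lt (tz ▸ t'), inv_one, mul_one, a, ← show _ = pm R' k' f f' _ from R'.slot m' k' k'' _ t', h3,
        ← h2.idem, ← h4.tgt, ← Matrix.mul_assoc _ _ _ᴴ, i.2 _ _ o1 o2 q q' h1, h4.ct_left, ι, ← ph_ct]
      simp only [conjTranspose_mul, conjTranspose_conjTranspose, Matrix.mul_assoc, LCx.γ]
    · rw [LCx.nu_one (.inr fun a => t (II_mono lt.le le_rfl (tz ▸ a))), inv_one]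
      exact if_neg t
  obtain ⟨u1, h1⟩ := exists_gm W W' cL gL (sL eL)
  obtain ⟨u2, h2⟩ := exists_gm W W' cR gR (sR eR)
  obtain ⟨u3, h3⟩ := mt_mid W W' k k' e e' f f' n1 rfl (C.g J) (γ := K.γ J _ _) ((K.hu J _ _ o1).mt
    (fun q _ o => (K.sf _ _).ok.fr.iso q o.1) fun q _ o => (K.sf _ _).ok.fr.iso _ o.2) hσ md
  have cp := cl_pm (K := K) (R := R) (i := n'.nl x) (i' := n'.nr x) k e e' (C.g J)
  have v1 : X.τ ⁻¹' Iio (x + 3 / 4) ⊆ Vg R (Iic x) w.l x True False := fun z s =>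
    (lt_or_ge (X.τ z) (w.l + 3 / 4)).elim (fun a => .inl (.inr ⟨trivial, a⟩)) fun a =>
      have t : X.τ z ∈ II w.l x := ⟨by linarith, s⟩
      .inl (.inl ⟨t, .inr (mem_TA (fun _ _ => id) t)⟩)
  have v2 : X.τ ⁻¹' Ioi (y + 1 / 4) ⊆ Vg R (Ici y) y w.r False True := fun z s =>
    (lt_or_ge ((w.r : ℝ) + 1 / 4) (X.τ z)).elim (fun a => .inr ⟨trivial, a⟩) fun a =>
      have t : X.τ z ∈ II y w.r := ⟨s, by linarith⟩
      .inl (.inl ⟨t, .inr (mem_TA (fun _ a _ => a) t)⟩)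
  obtain ⟨oD, dD, u, H⟩ := glue3 (X := X.mf) (p := W.p) (s := W.g) (q := fun z => W'.p (ψ z))
    (s' := fun z => (F n' z : ℂ) • W'.g (ψ z))
    (U := fun i => X.τ ⁻¹' i.elim (II x y) fun c => cond c (Ioi (y + 1 / 4)) (Iio (x + 3 / 4)))
    (D := fun i => i.elim (im (pm R k e e').φ _) fun c => cond c (Dw K R y w.r False True) (Dw K R w.l x True False))
    (by rintro (_ | _ | _); exacts [(isOpen_II _ _).preimage X.cont, isOpen_Iio.preimage X.cont,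
      isOpen_Ioi.preimage X.cont])
    (by rintro (_ | _ | _); exacts [cp.1, isOpen_Dw, isOpen_Dw])
    (by rintro (_ | _ | _); exacts [cp.2, v1.trans (cl_Vg le_rfl c.lo (lt.le.trans k.hi)),
      v2.trans (cl_Vg (k.lo.trans lt.le) c.hi le_rfl)])
    (fun z => (lt_or_ge (X.τ z) (x + 3 / 4)).elim (fun c => ⟨some false, c⟩) fun c =>
      (lt_or_ge ((y : ℝ) + 1 / 4) (X.τ z)).elim (fun d => ⟨some true, d⟩)
        fun d => ⟨none, And.intro (by linarith) (by linarith)⟩)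
    (by
      rintro (_ | _ | _) z c d
      exacts [W.unit (pm_Dw k e e' _ inter_subset_left ⟨c, d⟩), W.unit d, W.unit d])
    (by
      rintro (_ | _ | _)
      · exact ⟨u3, h3.congr fun z a _ => ⟨(sg_one (LCx.nu_one (.inl ⟨_, rx⟩))).symm, by
          rw [Line51.sg, Tau19.csmul_smul, show F n' z = _ from if_pos a]⟩⟩
      · exact ⟨u1, (h1.mono v1 inter_subset_right).congr fun z a _ => ⟨rfl, by rw [hL z a]; rfl⟩⟩
      · exact ⟨u2, (h2.mono v2 inter_subset_right).congr fun z a _ => ⟨rfl, by rw [hR z a]; rfl⟩⟩)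
  have w1 : ∀ {a b}, Dw K R a b False False ⊆ X.τ ⁻¹' II a b ∩ (Dw K R a b True False ∩ Dw K R a b False True) := by
    rintro a b z ⟨⟨_, _, h⟩ | _ | _, p, q⟩
    exacts [⟨II_mono p.1 p.2 q.1, ⟨.B _ _ h, p, q⟩, .B _ _ h, p, q⟩, p.elim, p.elim]
  refine ⟨u, ⟨_, oD, dD, iUnion_subset ?_, H⟩, GM.cp (eL := False) (eR := False) cL gL subset_rfl
    ((H.mono subset_rfl fun z a => mem_iUnion.2 ⟨some false, (w1 a.2).1.2, (w1 a.2).2.1⟩).congr
      fun z _ a => ⟨rfl, by rw [hL z (w1 a).1.2]; rfl⟩), GM.cp (eL := False) (eR := False) cR gR subset_rfl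
    ((H.mono subset_rfl fun z a => mem_iUnion.2 ⟨some true, (w1 a.2).1.1, (w1 a.2).2.2⟩).congr
      fun z _ a => ⟨rfl, by rw [hR z (w1 a).1.1]; rfl⟩)⟩
  rintro (_ | _ | _)
  exacts [pm_Dw k e e' _ inter_subset_left, inter_subset_right.trans Dw_mono, inter_subset_right.trans Dw_mono]

theorem mt_inw (c : w.Can w' J J' x y) {a : Wl} (o : a.OK w) (k : ∃ x' y', a.In x' y' ∧ (y' < x ∨ y < x')) :
    a.Mt w w' 0 w.l x ∧ WA (Iic x) a ∨ a.Mt w w' 0 y w.r ∧ WA (Ici y) a := by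
  obtain ⟨x', y', ⟨p, q, r⟩, k⟩ := k
  have lh := Sid48.OK_hi o.1
  have lo := Sid48.OK_lo o.1
  have t : ∀ {A : Set ℤ}, (∀ j, x' ≤ j → j ≤ y' → j ∈ A) → WA A a := fun h =>
    ⟨h _ p (by omega), h _ (by omega) q, fun t e j u v => h j (by linarith [(r t e).1]) (by linarith [(r t e).2])⟩
  have t' := t (A := {j | j < x ∨ y < j}) fun j u v => by simp only [mem_ofPred_eq]; omega
  exact k.imp (fun k => ⟨mt_of o c.eq t' lo.1 (by omega) (by omega) fun s e =>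
    ⟨by linarith [(o.2 s e).rg.lo], by linarith [(r s e).2]⟩, t fun j _ v => v.trans k.le⟩)
    fun k => ⟨mt_of o c.eq t' (by omega) lh.2 lo.2 fun s e => ⟨by linarith [(r s e).1], (o.2 s e).rg.hi⟩,
      t fun j u _ => k.le.trans u⟩

variable {κ lam : Type} [Fintype κ] [Fintype lam] [DecidableEq lam] {G : Tab C.kd κ} {P : Pm Γ} {L : LP C G P lam}

/-- **MV-CAN** -/
theorem canStmt (H : Nat L) : CanStmt L := fun {w w' ls} h h' μ J J' x y g c iv chg far => by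
  obtain ⟨V, hV⟩ := H.isN
  have i := H.inv J J' iv
  obtain ⟨ψ, f, pos, cL, cR, f1, f2, k⟩ :=
    exists_cn (K := L.L) (R := C.rz h.w) (R' := C.rz h'.w) (l := lam) (l' := lam) i c
  replace pos : Pos (C.X h.w).P.I (C.X h'.w).P.I ψ.toPartialDiffeomorph ψ.toPartialDiffeomorph.source
    (C.rz h.w).O (C.rz h'.w).O := pos
  have o := c.out i.1
  have lt := c.lt
  obtain ⟨m, e⟩ := exists_mv H h h' μ (g := id) (g' := g)
    (Dw := fun a a' => a = a' ∧ ∃ x' y', a.In x' y' ∧ (y' < x ∨ y < x')) pos isOpen_univ subset_rfl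
    (fun a a' k => (mt_inw c a.2.1 k.2).elim (fun t => mch_lc cL k.1 t.1) fun t => mch_lc cR k.1 t.1)
    (fun n => f (cp (g n) μ)) (fun n hn hn' => by
      have gL : Ga w w' (cp n μ) (cp (g n) μ) 0 w.l x (Iic x) := ⟨c.lo, fun j k => by
        rw [Gd, add_zero]
        refine ⟨fun e => ⟨by rw [c.eq j (.inl e)], (chg.1 n j).2 (.inl e)⟩, fun _ => ⟨?_, (chg.1 n j).1 (.inl k)⟩⟩
        exact (mem_Iic.1 k).eq_or_lt.elim (fun e => by simpa [e] using o.aL.hi) fun e => by rw [c.eq j (.inl e)],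
        fun _ _ _ q _ => q⟩
      have gR : Ga w w' (cp n μ) (cp (g n) μ) 0 y w.r (Ici y) := ⟨c.hi, fun j k => by
        rw [Gd, add_zero]
        refine ⟨fun _ => ⟨?_, (chg.1 n j).2 (.inr k)⟩, fun e => ⟨by rw [c.eq j (.inr e)], (chg.1 n j).1 (.inr e)⟩⟩
        exact (mem_Ici.1 k).eq_or_lt.elim (fun e => by simpa [← e] using o.aR.lo) fun e => by rw [c.eq j (.inr e)],
        fun _ _ q _ _ => q⟩
      obtain ⟨u, k1, k2, k3⟩ := k (L.W h hn μ) (L.W h' hn' μ) rfl rfl gL gR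
      exact ⟨u, k1, fun a a' t => (mt_inw c a.2.1 t.2).elim
        (fun s => lid2 (hV h hn μ) (hV h' hn' μ) pos _ isOpen_univ subset_rfl cL gL t.1 s.1 s.2 k2)
        fun s => lid2 (hV h hn μ) (hV h' hn' μ) pos _ isOpen_univ subset_rfl cR gR t.1 s.1 s.2 k3⟩)
    fun a k => by
      have s := far _ k.2
      have := (lens_eq h k.2).2.1
      refine ⟨k.2, ⟨rfl, _, _, ⟨le_rfl, le_rfl, k.1 ▸ nofun⟩, by omega⟩, subset_univ _,
        s.elim (fun s => ⟨_, _, cL, (Sid48.OK_lo a.2.1.1).1, by omega⟩)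
          fun s => ⟨_, _, cR, by omega, (Sid48.OK_hi a.2.1.1).2⟩, fun n => ⟨rfl, chg.2 _ k.2 n,
        by rw [sgl, sgl, (chg.1 n _).1 (by omega)]; rfl, ?_, fun z t => f1 _ z fun u => ?_⟩⟩
      · rw [chg.2 _ k.2 n]
        exact f2 _ _ (if_neg (by omega)) (if_neg (by omega))
      · exact s.elim (fun s => Rz.II_disj (by omega) (hf_II h k t) u) fun s => Rz.II_disj (by omega) u (hf_II h k t)
  exact ⟨m, by rw [Mv0.Glob, e]; exact ⟨rfl, rfl⟩⟩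

end Crest.Agent.X212.Mv27
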