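import Crest.Agent.X212.Mv27.Tw
import Crest.Agent.X212.Br55.Ch

/-!
# Row 212, layer G (helper27): moves that respect the lens walls

* `GU` : comparisons with a phase; `Nat.mod`; `exists_mv` : a move from comparisons of the lines.
-/

set_option autoImplicit false
set_option linter.unusedSectionVars false
noncomputable section
open Set Function Filter Topology Matrix
open scoped ContDiff Manifold

namespace Crest.Agent.X212.Mv27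
open M G75 Wd38 Nm96 Cyl58 Br55 Line51 Orx52

variable {Γ : Nm} {κ lam : Type} [Fintype κ] [Fintype lam] {C : Cx Γ} {w w' : Shp Γ} {hw : w.OK} {hw' : w'.OK}

section gu
variable {Λ : NmL Γ} {K : LCx C Λ} {X X' : TP V4} {R : Rz C hw X} {R' : Rz C hw' X'} {n n' n₁ n₁' : Wd38.Wt}
  {l l' : Type} [Fintype l] [Fintype l'] {W : WL K R n l} {W' : WL K R' n' l'} {W₁ : WL K R n₁ l}
  {W₁' : WL K R' n₁' l'} {φ : X.P.M → X'.P.M} {c c₁ : X.P.M → Circle} {V O : Set X.P.M}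
  {u u₁ : X.P.M → Matrix l' l ℂ}

variable (W W' φ c V u) in
/-- `u` matches the global sections up to the phase `c` on a dense open set -/
def GU : Prop := ∃ D, IsOpen D ∧ Dense D ∧ D ⊆ Dw K R w.l w.r True True ∧ GM W W' φ D c V u

theorem GU.uni (h : GU W W' φ c V u) : Uni X.P.I W.p (fun z => W'.p (φ z)) u V := h.choose_spec.2.2.2.toUni

theorem GU.unique (h : GU W W' φ c V u) (h₁ : GU W₁ W₁' φ c₁ V u₁) (hO : IsOpen O) (v : O ⊆ V)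
    (e : ∀ z ∈ O, W₁.p z = W.p z ∧ W₁.g z = W.g z ∧ W₁'.g (φ z) = W'.g (φ z) ∧ c₁ z = c z) : EqOn u u₁ O :=
  let ⟨D, o, d, s, m⟩ := h
  let ⟨D₁, _, d₁, _, m₁⟩ := h₁
  GM.unique (D := D ∩ D₁) (m.mono subset_rfl fun _ k => k.2.1) (m₁.mono subset_rfl fun _ k => k.2.2)
    (inter_subset_left.trans s) hO (fun z _ => (d.inter_of_isOpen_left d₁ o) z) v v e

theorem GU.eq_p {W' : WL K R' n' l} {u} (h : GU W W' φ c V u) (hO : IsOpen O) (v : O ⊆ V)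
    (e : ∀ z ∈ O, W'.g (φ z) = W.g z ∧ c z = 1) : EqOn u W.p O :=
  let ⟨_, _, d, s, m⟩ := h
  (m.toUni.mono v).ext_sec hO (fun z _ => d z) (W.uni.mono (subset_univ _)) fun z k o => ⟨_, W.unit (s o), by
    rw [m.eq z (v k) o, (e z k).1, (e z k).2, Circle.coe_one, one_smul, (W.unit (s o)).left]⟩

end gu

variable {G : Tab C.kd κ} {ls ls' : Finset Bs} {a : UW w ls} {a' : UW w' ls'} {z : (C.X hw).P.M} {s : Bool}

theorem isOpen_hf {X : Mf 4} {A : Type} (M : Mark X A κ) (a : A) (b : Bool) : IsOpen (hf M a b) :=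
  ((M.sys.w a).op_sd b).union (M.sys.w a).op_band

theorem mch_hf {ψ} (h : Mch hw hw' ψ a a') (k : z ∈ ψ.source) (e : z ∈ hf (um G hw ls) a s) :
    ψ z ∈ hf (um G hw' ls') a' s :=
  e.imp (h.sd s z k).2 fun ⟨p, f⟩ => ⟨_, (h.j p).2.symm.trans (congrArg ψ f)⟩

theorem trc1 (h : a.1.tw = []) : Sid48.Trc (C.rz hw) (um G hw ls).sys ((C.rz hw).tws []) (fun a => a.1.b) {a} :=
  Sid48.trc_mark _ G _ _ fun _ k => k ▸ Sid48.utw_nil h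

theorem hf_false (h : a.1.tw = []) : z ∈ hf (um G hw ls) a false ↔ z ∈ (C.rz hw).Z a.1.b (Iio (a.1.b.r0 + 1 / 4)) :=
  (trc1 h).hf_false rfl

theorem hf_true (h : a.1.tw = []) : z ∈ hf (um G hw ls) a true ↔ z ∉ (C.rz hw).Z a.1.b (Iic (a.1.b.r0 - 1 / 4)) :=
  (trc1 h).hf_true rfl

theorem mch_lc {ψ x y} (c : Lc (C.rz hw) (C.rz hw') 0 x y ψ) (e : a.1 = a'.1) (m : a.1.Mt w w' 0 x y) :
    Mch hw hw' ψ a a' :=
  have e' : a'.1 = a.1.sh 0 := e.symm.trans (Wl.sh_zero _).symm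
  have E : a.1.b.ty w = a'.1.b.ty w' := e' ▸ m.1.ty
  ⟨E, (c.bn e' m _ _ E).1, (c.bn e' m _ _ E).2⟩

variable [DecidableEq lam] {P : Pm Γ} {L : LP C G P lam}

theorem lens_eq (h : (f0 w ls).OK P) {b : Bs} (k : b ∈ ls) : b.arc ∧ b.hi = b.lo + 3 ∧ b.r0 = 3 / 2 := by
  obtain ⟨x, rfl, -⟩ := h.ls b k
  exact ⟨trivial, rfl, by simp [Bs.r0]⟩

theorem hf_II (h : (f0 w ls).OK P) (k : IsL ls a.1) :
    hf (um G h.w ls) a false ⊆ (C.X h.w).τ ⁻¹' II a.1.b.lo a.1.b.hi := fun _ e =>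
  (C.rz h.w).D_II (((C.rz h.w).arc_eq (lens_eq h k.2).1).1 ▸ (hf_false k.1).1 e :)

theorem Nat.mod (H : Nat L) (h : (f0 w ls).OK P) (h' : (f0 w' ls').OK P) (a : UW w ls) (a' : UW w' ls') (ha ha')
    {ψ x y} (c : Lc (C.rz h.w) (C.rz h'.w) 0 x y ψ) (e : a.1 = a'.1) (h1 : x ≤ a.1.b.lo) (h2 : a.1.b.hi ≤ y)
    (s : hf (um G h.w ls) a false ⊆ ψ.source) :
    EqOn (L.I h' a' ha').ψ (ψ ∘ (L.I h a ha).ψ) (hf L.Lm.M () false) := fun z hz => by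
  obtain ⟨wm, hm, f, x₀, r, H⟩ := H.cr
  obtain ⟨x₁, y₁, φ, p, q, c₁, k⟩ := H h a ha
  obtain ⟨x₂, y₂, φ', p', q', c₂, k'⟩ := H h' a' ha'
  obtain ⟨t, s₁, e₁⟩ := k z hz
  obtain ⟨-, s₂, e₂⟩ := k' z hz
  have m := s (L.img h a ha ▸ mem_image_of_mem _ hz)
  obtain ⟨a, oa⟩ := a
  obtain ⟨_, oa'⟩ := a'
  obtain rfl : a = _ := e
  obtain ⟨g, g', -⟩ := lens_eq h ha.2
  have r₁ := Sid48.OK_rg oa.1.1 g
  have r₂ := Sid48.OK_rg oa'.1.1 g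
  obtain ⟨v, tv, ev⟩ := surj_B (R := C.rz hm) r t
  rw [← ev] at s₁ s₂ e₁ e₂
  obtain ⟨v₁, l₁, f₁⟩ := c₁.ex' r r₁ (by ring) (g'.trans (by ring)) p q tv s₁
  obtain ⟨v₂, l₂, f₂⟩ := c₂.ex' r r₂ (by ring) (g'.trans (by ring)) p' q' tv s₂
  rw [e₁, ← f₁] at m
  rw [Function.comp_apply, e₁, e₂, ← f₁, ← f₂]
  refine (c.app r₁ r₂ (add_zero _).symm (add_zero _).symm h1 h2 ?_ m ((l₁.symm.trans l₂).cast (by simp))).symm
  have := (mem_II_nr l₁).2 tv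
  rwa [add_sub_cancel, show x₀ + 3 + (a.b.lo - x₀) = a.b.hi by rw [g']; ring] at this

theorem out_p (h : (f0 w ls).OK P) {n} (hn : (f0 w ls).LOK P n) (μ) (k : IsL ls a.1)
    (hn' : (f0 w ls).LOK P (fl a.1.b n)) : EqOn (L.W h hn' μ).p (L.W h hn μ).p (hf (um G h.w ls) a true) :=
  fun z e => by
    have i := (L.out h hn μ a k hn').uni.iso z e
    rw [L.p, L.p] at i
    exact i.tgt.symm.trans (((L.W h hn μ).ln.prj z trivial).refl.tgt)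

/-- **a move from comparisons** -/
theorem exists_mv (H : Nat L) (h : (f0 w ls).OK P) (h' : (f0 w' ls').OK P) (μ) {g g' : Wd38.Wt → Wd38.Wt}
    {Dw : Wl → Wl → Prop} {V : Set (C.X h.w).P.M} {ψ} (pos) (op : IsOpen V) (sub : V ⊆ ψ.source)
    (mch : ∀ (a : UW w ls) (a' : UW w' ls'), Dw a.1 a'.1 → Mch h.w h'.w ψ a a') (c : Wd38.Wt → (C.X h.w).P.M → Circle)
    (hu : ∀ n (hn : (f0 w ls).LOK P (g n)) (hn' : (f0 w' ls').LOK P (g' n)),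
      ∃ u, GU (L.W h hn μ) (L.W h' hn' μ) ψ (c n) V u ∧
        ∀ a a' (k : Dw a.1 a'.1), LId (L.N h hn μ) (L.N h' hn' μ) (mid1 G pos (mch a a' k)) V u)
    (hl : ∀ a : UW w ls, IsL ls' a.1 → a.1.b ∈ ls ∧ Dw a.1 a.1 ∧ hf (um G h.w ls) a false ⊆ V ∧
      (∃ x y, Lc (C.rz h.w) (C.rz h'.w) 0 x y ψ ∧ x ≤ a.1.b.lo ∧ a.1.b.hi ≤ y) ∧
      ∀ n, g (fl a.1.b n) = fl a.1.b (g n) ∧ g' (fl a.1.b n) = fl a.1.b (g' n) ∧
        sgl a.1.b (g n) = sgl a.1.b (g' n) ∧ c (fl a.1.b n) = c n ∧ ∀ z ∈ hf (um G h.w ls) a false, c n z = 1) :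
    ∃ m : Mv L h h' μ g g' Dw V, m.ψ = ψ := by
  have key : ∀ n, ∃ u, ∀ (hn : (f0 w ls).LOK P (g n)) (hn' : (f0 w' ls').LOK P (g' n)),
      GU (L.W h hn μ) (L.W h' hn' μ) ψ (c n) V u ∧
        ∀ a a' (k : Dw a.1 a'.1), LId (L.N h hn μ) (L.N h' hn' μ) (mid1 G pos (mch a a' k)) V u := fun n => by
    by_cases e : (f0 w ls).LOK P (g n) ∧ (f0 w' ls').LOK P (g' n)
    · exact (hu n e.1 e.2).imp fun _ k _ _ => k
    · exact ⟨0, fun p q => (e ⟨p, q⟩).elim⟩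
  choose u hU using key
  have md : ∀ (a : UW w ls) (a' : UW w' ls') ha ha', a.1 = a'.1 →
      EqOn (L.I h' a' ha').ψ (ψ ∘ (L.I h a ha).ψ) (hf L.Lm.M () false) := fun a a' ha ha' e =>
    let ⟨_, _, s, ⟨_, _, c, p, q⟩, _⟩ := hl a (e ▸ ha')
    H.mod h h' a a' ha ha' c e p q (s.trans sub)
  refine ⟨⟨⟨ψ, pos, op, sub, mch, u, fun n p q => by rw [L.p, L.p]; exact (hU n p q).1.uni,
    fun n p q => (hU n p q).2⟩, fun a k n hn hn' => ?_, md⟩, rfl⟩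
  obtain ⟨b, d, s, -, e⟩ := hl a k
  obtain ⟨e1, e2, e3, e4, e5⟩ := e n
  have k₀ : IsL ls a.1 := ⟨k.1, b⟩
  let a' : UW w' ls' := ⟨a.1, ad_isL h' ⟨k.1, Finset.mem_union_right _ k.2⟩⟩
  have key : ∀ {m m'}, m = fl a.1.b (g n) → m' = fl a.1.b (g' n) → ∀ (p : (f0 w ls).LOK P m)
      (q : (f0 w' ls').LOK P m'), ∀ z ∈ V ∩ hf (um G h.w ls) a true, (L.W h hn μ).p z = (L.W h p μ).p z ∧
        (L.W h hn μ).g z = (L.W h p μ).g z ∧ (L.W h' hn' μ).g (ψ z) = (L.W h' q μ).g (ψ z) := by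
    rintro _ _ rfl rfl p q z t
    exact ⟨(out_p h hn μ k₀ p t.2).symm, (H.out h hn μ a k₀ p t.2).symm,
      (H.out h' hn' μ a' k q (mch_hf (mch a a' d) (sub t.1) t.2)).symm⟩
  have p := e1 ▸ lok_fl h hn b
  have q := e2 ▸ lok_fl h' hn' k.2
  refine ⟨(hU _ p q).1.unique (hU n hn hn').1 (op.inter (isOpen_hf _ _ _)) inter_subset_left fun z t =>
    let ⟨i, j, o⟩ := key e1 e2 p q z t; ⟨i, j, o, congrFun e4.symm z⟩, ?_⟩
  rw [L.p]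
  refine (hU n hn hn').1.eq_p (isOpen_hf _ _ _) s fun z t => ⟨?_, e5 z t⟩
  obtain ⟨γ, hγ⟩ := H.ins
  obtain ⟨z, o, rfl⟩ := (L.img h a k₀).ge t
  rw [hγ h hn μ a k₀ z o, e3, ← hγ h' hn' μ a' k z o, md a a' k₀ k rfl o]
  rfl

end Crest.Agent.X212.Mv27
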