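import Crest.Agent.X212.Mv27.Sur

/-!
# Row 212, layer G (helper27): lines over product regions; the move between two root words
-/

set_option autoImplicit false
set_option linter.unusedSectionVars false
noncomputable section
open Set Function Filter Topology Matrix
open scoped ContDiff Manifold

namespace Crest.Agent.X212.Mv27
open M G75 Wd38 Nm96 Cyl58 Br55 Line51 Orx52 Pj41
open Dr59 (Mp)
open Rod53 (Z2 PM)

theorem glue3 {X : Mf 4} {l l' : Type} [Fintype l] [Fintype l'] {U D : Option Bool → Set X.M}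
    {p : X.M → Matrix l l ℂ} {q : X.M → Matrix l' l' ℂ} {s : X.M → Matrix l Unit ℂ} {s' : X.M → Matrix l' Unit ℂ}
    (hU : ∀ i, IsOpen (U i)) (hD : ∀ i, IsOpen (D i)) (hc : ∀ i, U i ⊆ closure (D i)) (cov : ∀ z, ∃ i, z ∈ U i)
    (hs : ∀ i, ∀ z ∈ U i, z ∈ D i → PIso (s z) 1 (p z)) (h : ∀ i, ∃ u, Line51.Mt X.I (D i) p s q s' u (U i)) :
    IsOpen (⋃ i, U i ∩ D i) ∧ Dense (⋃ i, U i ∩ D i) ∧ ∃ u, Line51.Mt X.I (⋃ i, U i ∩ D i) p s q s' u univ := by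
  obtain ⟨u, k1, k2⟩ := exists_mt_glue hU hD hc (s := fun _ => s) (s' := fun _ => s') hs h
    fun _ _ _ _ _ => ⟨1, (Matrix.mul_one _).symm, (Matrix.mul_one _).symm⟩
  refine ⟨isOpen_iUnion fun i => (hU i).inter (hD i), fun z => ?_, u, k1.mono fun z _ => mem_iUnion.2 (cov z),
    fun z _ k => let ⟨i, a⟩ := mem_iUnion.1 k; (k2 i).eq z a.1 a.2⟩
  obtain ⟨i, a⟩ := cov z
  exact closure_mono (subset_iUnion (fun i => U i ∩ D i) i) ((hU i).inter_closure ⟨a, hc i a⟩)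

variable {Γ : Nm} {C : Cx Γ} {Λ : NmL Γ} {K : LCx C Λ} {w w' : Shp Γ} {hw : w.OK} {hw' : w'.OK} {X X' : TP V4}
  {R : Rz C hw X} {R' : Rz C hw' X'} {n n' : Wd38.Wt} {x y x' y' i i' : ℤ} {τ τ' : Γ.ι × Z2}
  {l l' : Type} [Fintype l] [Fintype l']

theorem bw_const (h : (w.s x).r = τ) (h' : ∀ j, x < j → j ≤ y → (w.s j).l = τ) :
    ∀ j, x ≤ j → j ≤ y → w.bw x y j = τ.2 := fun j a b => a.eq_or_lt.elim
  (fun e => (Shp.bw_le e.ge).trans (congrArg _ h)) fun e => (Shp.bw_mid e b).trans (congrArg _ (h' j e b))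

theorem bn_const (hn : n.OK w Λ) (h : w.Rg x y) {a : Z2} (e : ∀ j, x ≤ j → j ≤ y → w.bw x y j = a) :
    ∀ j, x ≤ j → j ≤ y → n.bn x y j = n.nr x := fun j a b => by
  induction j, a using Int.leInduction with
  | base => exact bn_le le_rfl
  | succ j k ih =>
    have := hn.eq (j + 1) (by linarith [h.lo]) (b.trans h.hi) (by
      rw [Shp.lf, Shp.rt, add_sub_cancel_right, ← h.bw_r k b, ← Shp.bw_mid (x := x) (by omega) b, e j k (by omega),
        e _ (by omega) b])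
    rw [bn_mid (by omega) b, ← this, add_sub_cancel_right, ← bn_r hn h k b, ih (by omega)]

theorem jr_pw (hw : w.OK) (h : w.Rg x y) (e' : ∀ j, x ≤ j → j ≤ y → w.bw x y j = τ.2) :
    II x y ⊆ Rod53.Jr (w.v x y) (Rod53.sa (fd τ.2)) := by
  rw [sa_fd (e' x le_rfl h.lt.le ▸ (h.isWd hw).prim x), h.v_eq hw]
  exact (II_sub x y).trans (Rod53.Ioo_subset_Jr' fun k a b => e' k a b ▸ PM.refl _)

theorem mark_pw (W : WL K R n l) (h : w.Rg x y) (e : τ.1 = w.kn x) (e' : ∀ j, x ≤ j → j ≤ y → w.bw x y j = τ.2)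
    (hi : n.nr x = i) : ∃ m, (K.S τ i).Mk (𝓡 3) (fun q => W.p (R.B h (C.pw hw h τ e e' q)))
      (fun q => sg K R n W.g x (R.B h (C.pw hw h τ e e' q))) m (Prod.snd ⁻¹' II x y) :=
  ((K.sf τ i).flc e).mark (op_tm C w x y) (W.tl h) (isOpen_II x y) (jr_pw hw h e') (fun t ht η k => by
    rw [sa_fd (e' x le_rfl h.lt.le ▸ (h.isWd hw).prim x)] at k
    exact rep_wd (fun j a b => by rw [h.bz_eq hw, e' j a b, k, bn_const W.ok h e' j a b, hi]) (II_sub _ _ ht))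
    subset_rfl

theorem pw_off (hw : w.OK) (h : w.Rg x y) (e : τ.1 = w.kn x) (e') (i : ℤ) {q : (mF C.kd τ).M × ℝ} (hq : q.2 ∈ II x y) :
    (C.pw hw h τ e e' q : C.XR w x y) ∈ off _ _ ↔ q.1 ∈ (K.S τ i).D := by
  rw [((K.sf τ i).flc e).D]
  exact cyf_mem_off _ _ (jr_pw hw h e' hq)

variable (R) in
/-- the product region of a constant range -/
abbrev pm (h : w.Rg x y) (e : τ.1 = w.kn x) (e' : ∀ j, x ≤ j → j ≤ y → w.bw x y j = τ.2) :
    TIso (C.cy τ) X (II x y) := (C.pw hw h τ e e').trans (R.B h)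

theorem pm_Dw (h : w.Rg x y) (e : τ.1 = w.kn x) (e') (i : ℤ) {D : Set (mF C.kd τ).M} (hD : D ⊆ (K.S τ i).D) :
    X.τ ⁻¹' II x y ∩ im (pm R h e e').φ (Prod.fst ⁻¹' D) ⊆ Dw K R w.l w.r True True := fun z k => by
  obtain ⟨a, t, rfl⟩ := (pm R h e e').surj k.1
  have t' : a.2 ∈ II x y := (show a.2 = _ from t) ▸ k.1
  exact ⟨.B _ _ h, ⟨h.lo, h.hi⟩, k.1, (mem_imT _ ((C.pw hw h τ e e').mem t')).2
    ((pw_off hw h e e' i t').2 (hD ((mem_imT (pm R h e e') t').1 k.2)))⟩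

/-- matching over a product region -/
theorem mt_mid (W : WL K R n l) (W' : WL K R' n' l') (h : w.Rg x y) (h' : w'.Rg x' y') (e : τ.1 = w.kn x) (e')
    (f : τ'.1 = w'.kn x') (f') (hi : n.nr x = i) (hi' : n'.nr x' = i') (g : C.Df τ τ') {v} {γ : _ → Circle}
    (hv : Line51.Mt (𝓡 3) ((K.S τ i).D ∩ g ⁻¹' (K.S τ' i').D) (K.S τ i).L.p (K.S τ i).s (fun q => (K.S τ' i').L.p (g q))
      (fun q => (γ q : ℂ) • (K.S τ' i').s (g q)) v univ) {σ : ℝ → ℝ} (hσ : Mp 𝓘(ℝ, ℝ) 𝓘(ℝ, ℝ) (II x y) (II x' y') σ)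
    {φ : X.P.M → X'.P.M} (hφ : ∀ q, ∀ t ∈ II x y, φ (pm R h e e' (q, t)) = pm R' h' f f' (g q, σ t)) :
    ∃ u, Line51.Mt X.P.I (im (pm R h e e').φ (Prod.fst ⁻¹' ((K.S τ i).D ∩ g ⁻¹' (K.S τ' i').D))) W.p (sg K R n W.g x)
      (fun z => W'.p (φ z)) (fun z => (γ ((pm R h e e').symm z).1 : ℂ) • sg K R' n' W'.g x' (φ z)) u
      (X.τ ⁻¹' II x y) := by
  obtain ⟨m, k⟩ := mark_pw W h e e' hi
  obtain ⟨m', k'⟩ := mark_pw W' h' f f' hi'
  have k2 := ((((k'.time hσ).symm fun z a b => (W'.tl h').fr.iso _ ⟨(C.pw hw' h' τ' f f').mem (x := (_, _)) (hσ.maps a),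
    (pw_off hw' h' f f' i' (q := (_, _)) (hσ.maps a)).2 b⟩).comp (f := fun z : (mF C.kd τ).M × ℝ => (g z.1, z.2))
    (V := Prod.snd ⁻¹' II x y) ⟨fun z _ => ((g.contMDiff _).comp z contMDiffAt_fst).prodMk contMDiffAt_snd,
      fun _ k => k⟩).mono (D' := Prod.fst ⁻¹' ((K.S τ i).D ∩ g ⁻¹' (K.S τ' i').D)) subset_rfl
        fun _ k => k.2.2).smul fun z => γ z.1
  have k3 := ((k.mono subset_rfl fun _ k => k.2.1).trans
    (hv.comp (f := Prod.fst) ⟨fun _ _ => contMDiffAt_fst, mapsTo_univ _ _⟩)).trans k2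
  exact ⟨_, mt_T (pm R h e e') ((k3.congr_p (fun _ _ => rfl) fun z b => congrArg W'.p (hφ z.1 z.2 b)).congr
    fun z b _ => ⟨rfl, by rw [(pm R h e e').symm_apply b, hφ z.1 z.2 b]; rfl⟩) subset_rfl
    fun _ b _ => ⟨b, (mem_imT _ b).1⟩⟩

theorem cl_pm (h : w.Rg x y) (e : τ.1 = w.kn x) (e') (g : C.Df τ τ') :
    IsOpen (im (pm R h e e').φ (Prod.fst ⁻¹' ((K.S τ i).D ∩ g ⁻¹' (K.S τ' i').D))) ∧
      X.τ ⁻¹' II x y ⊆ closure (im (pm R h e e').φ (Prod.fst ⁻¹' ((K.S τ i).D ∩ g ⁻¹' (K.S τ' i').D))) :=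
  ⟨isOpen_im (((K.sf _ _).ok.opn.inter ((K.sf _ _).ok.opn.preimage g.continuous)).preimage continuous_fst),
    imT_cl _ (((K.sf _ _).ok.dn.inter_of_isOpen_left ((K.sf _ _).ok.dn.preimage g.toHomeomorph.isOpenMap)
      (K.sf _ _).ok.opn).preimage isOpenMap_fst)⟩

theorem mt_cap' {m j j' : ℤ} {J J' J₀ : Set ℝ} {k : TIso (C.cap j) X J} {k' : TIso (C.cap j') X' J'} {p g q g'}
    (H : CC (lam := l) K m p g k) (H' : CC (lam := l') K m q g' k') (e : ∀ a, (C.cap j).τ a ∈ J → (C.cap j').τ a ∈ J')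
    (s : J₀ ⊆ J) {φ : X.P.M → X'.P.M} (e' : ∀ a, (C.cap j).τ a ∈ J₀ → φ (k a) = k' a) :
    ∃ u, Line51.Mt X.P.I (im k.φ K.S0.D) p g (fun z => q (φ z)) (fun z => g' (φ z)) u (X.τ ⁻¹' J₀) := by
  obtain ⟨u, h⟩ := key_cc' (φ := fun z => k' (k.symm z)) H H' fun a b => ⟨e a b, congrArg k' (k.symm_apply b)⟩
  have t : ∀ z ∈ X.τ ⁻¹' J₀, φ z = k' (k.symm z) := fun z b =>
    (congrArg φ (k.apply_symm (s b)).symm).trans (e' _ ((k.symm.tm z (s b)).symm ▸ b))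
  exact ⟨u, ((h.mono (preimage_mono s) inter_subset_right).congr_p (fun _ _ => rfl)
    fun z b => congrArg q (t z b)).congr fun z b _ => ⟨rfl, congrArg g' (t z b)⟩⟩

/-- the lines of two root words -/
theorem exists_rt (r : Root w) (r' : Root w') : ∃ ψ : X.mf.M ≃ₘ^∞⟮X.mf.I, X'.mf.I⟯ X'.mf.M,
    Pos X.P.I X'.P.I ψ univ R.O R'.O ∧ ∀ {n n'} (W : WL K R n l) (W' : WL K R' n' l'), n'.mL = n.mL → n'.mR = n.mR →
      ∃ u, Uni X.P.I W.p (fun z => W'.p (ψ z)) u univ := by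
  obtain ⟨k, e, e', ψ, σ, u, a, b, t, cl, cr, cm, p⟩ := R.exists_entry fun j _ _ => r j
  obtain ⟨k', f, f', ψ', σ', u', a', b', -, cl', cr', cm', p'⟩ := R'.exists_entry fun j _ _ => r' j
  have lt := Sid48.cast_lt hw.lt
  have i1 := mem_Ioo_of u.strictMono (a := -(1 / 4)) (b := 1 / 4) (a' := w.l + 1 / 4) (b' := w.r + 3 / 4)
    ((a _ (by linarith)).trans (by ring)) ((b _ (by linarith)).trans (by ring))
  have i2 := mem_Ioo_of u'.strictMono (a := -(1 / 4)) (b := 1 / 4) (a' := w'.l + 1 / 4) (b' := w'.r + 3 / 4)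
    ((a' _ (by linarith)).trans (by ring)) ((b' _ (by linarith)).trans (by ring))
  have i3 : ∀ s ∈ II w.l w.r, σ.symm s ∈ Ioo (-(1 / 4) : ℝ) (1 / 4) := fun s c =>
    (i1 _).1 ((σ.apply_symm_apply s).symm ▸ c)
  refine ⟨ψ.symm.trans ψ', p'.comp ((Pos.symm (φ := ψ.toPartialDiffeomorph) p subset_rfl).mono
    fun z _ => ⟨_, trivial, ψ.apply_symm_apply z⟩) (fun z _ => ψ'.isLocalDiffeomorph z)
    (fun z _ => ψ.symm.isLocalDiffeomorph z) (mapsTo_univ _ _), fun {n n'} W W' eL eR => ?_⟩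
  have ap : ∀ {z a}, ψ a = z → ψ.symm.trans ψ' z = ψ' a := by
    rintro _ a rfl
    exact congrArg ψ' (ψ.symm_apply_apply a)
  obtain ⟨v, hv⟩ := mt_mid W W' k k' e e' f f' W.ok.sl W'.ok.sl (Diffeomorph.refl _ _ _) (γ := 1)
    (v := (K.S Γ.cap Λ.x).L.p) ⟨⟨(K.sf _ _).ok.ln.sm, fun z c => ((K.sf _ _).ok.ln.prj z c).refl⟩, fun z _ c => by
      rw [((K.sf _ _).ok.fr.iso z c.1).left]; exact (one_smul _ _).symm⟩
    (σ := σ' ∘ σ.symm) ⟨fun s _ => (σ'.contMDiff.comp σ.symm.contMDiff) s, fun s c => (i2 _).2 (i3 s c)⟩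
    (φ := ψ.symm.trans ψ') fun q s c =>
      (ap ((cm q _ (i3 s c)).trans (by rw [σ.apply_symm_apply]; rfl))).trans (cm' q _ (i3 s c))
  have cp := cl_pm (K := K) (R := R) (i := Λ.x) (i' := Λ.x) k e e' (Diffeomorph.refl _ _ _)
  obtain ⟨-, -, U, H⟩ := glue3 (X := X.mf) (p := W.p) (s := W.g) (q := fun z => W'.p (ψ.symm.trans ψ' z))
    (s' := fun z => W'.g (ψ.symm.trans ψ' z))
    (U := fun i => X.τ ⁻¹' i.elim (II w.l w.r) fun c => cond c (Ioi (w.r + 5 / 8)) (Iio (w.l + 3 / 8)))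
    (D := fun i => i.elim (im (pm R k e e').φ _) fun c => cond c (im R.kR.φ K.S0.D) (im R.kL.φ K.S0.D))
    (by rintro (_ | _ | _); exacts [(isOpen_II _ _).preimage X.cont, isOpen_Iio.preimage X.cont,
      isOpen_Ioi.preimage X.cont])
    (by rintro (_ | _ | _); exacts [cp.1, Ch.L.isOpen_D, Ch.R.isOpen_D])
    (by rintro (_ | _ | _); exacts [cp.2, (preimage_mono (Iio_subset_Iio (by linarith))).trans Ch.L.cl,
      (preimage_mono (Ioi_subset_Ioi (by linarith))).trans Ch.R.cl])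
    (fun z => (lt_or_ge (X.τ z) (w.l + 3 / 8)).elim (fun c => ⟨some false, c⟩) fun c =>
      (lt_or_ge ((w.r : ℝ) + 5 / 8) (X.τ z)).elim (fun d => ⟨some true, d⟩)
        fun d => ⟨none, And.intro (by linarith) (by linarith)⟩)
    (by
      rintro (_ | _ | _) z c d
      exacts [W.unit (pm_Dw k e e' _ inter_subset_left ⟨c, d⟩), W.cL.unit (Iio_subset_Iio (by linarith) c) d,
        W.cR.unit (Ioi_subset_Ioi (by linarith) c) d])
    (by
      rintro (_ | _ | _)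
      · exact ⟨v, hv.congr fun z _ _ => ⟨(sg_one (LCx.nu_one (.inl ⟨_, r _⟩))).symm,
          ((one_smul _ _).trans (sg_one (LCx.nu_one (.inl ⟨_, r' _⟩)))).symm⟩⟩
      · refine mt_cap' W.cL (eL ▸ W'.cL) (fun z c => ?_) (Iio_subset_Iio (by linarith)) fun z c => ?_
        · change _ + ((w.l : ℝ) + 1 / 2) < _ at c
          change _ + ((w'.l : ℝ) + 1 / 2) < _
          linarith
        · change C.S.τ (1 / 4) z + ((w.l : ℝ) + 1 / 2) < _ at c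
          exact (ap (cl z (by linarith))).trans (cl' z (by linarith))
      · refine mt_cap' W.cR (eR ▸ W'.cR) (fun z c => ?_) (Ioi_subset_Ioi (by linarith)) fun z c => ?_
        · change _ < _ + ((w.r : ℝ) + 1 / 2) at c
          change _ < _ + ((w'.r : ℝ) + 1 / 2)
          linarith
        · change _ < C.S.τ (1 / 4) z + ((w.r : ℝ) + 1 / 2) at c
          exact (ap (cr z (by linarith))).trans (cr' z (by linarith)))
  exact ⟨U, H.toUni⟩

variable {κ lam : Type} [Fintype κ] [Fintype lam] [DecidableEq lam] {G : Tab C.kd κ} {P : Pm Γ}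

/-- **MV-RT** -/
theorem rtStmt (L : LP C G P lam) : RtStmt L := fun {w w'} h h' μ n n' r r' => by
  obtain ⟨ψ, pos, H⟩ := exists_rt (K := L.L) (R := C.rz h.w) (R' := C.rz h'.w) (l := lam) (l' := lam) r r'
  have : ∃ u, ∀ (hn : (f0 w ∅).LOK P n) (hn' : (f0 w' ∅).LOK P n'),
      Uni (C.X h.w).mf.I (L.N h hn μ).p (fun z => (L.N h' hn' μ).p (ψ z)) u univ := by
    by_cases e : (f0 w ∅).LOK P n ∧ (f0 w' ∅).LOK P n'
    · exact (H (L.W h e.1 μ) (L.W h' e.2 μ) rfl rfl).imp fun _ k _ _ => by rw [L.p, L.p]; exact k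
    · exact ⟨0, fun p q => (e ⟨p, q⟩).elim⟩
  obtain ⟨u, k⟩ := this
  exact ⟨⟨ψ.toPartialDiffeomorph, pos, isOpen_univ, subset_rfl, fun _ _ => False.elim, fun _ => u, fun _ => k,
    fun _ _ _ _ _ c => c.elim⟩, rfl, rfl⟩

end Crest.Agent.X212.Mv27
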